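import Vale.Agent.P033.Runs

namespace Vale.Agent.Results.P033.MonochromaticProgressions

open Vale.Agent.P033 Finset

/-- First row `(1,1,1,-1)` of the circulant Hadamard matrix of order `4`. -/
def row4 : ZMod 4 → ℤ := ![1, 1, 1, -1]

lemma row4_isRow : IsCirculantHadamardRow row4 := by
  constructor
  · decide
  · ext i j
    fin_cases i <;> fin_cases j <;> decide

/-- Restrictions on monochromatic progressions and on progression sums in the first row of a
circulant Hadamard matrix, with sharpness of the window inequality at `n = 4`, `L = 3`, `m = 2`. -/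
theorem result :
    (∀ (n : ℕ) [NeZero n] (h : ZMod n → ℤ), IsCirculantHadamardRow h →
      (∀ (a : ZMod n) (L : ℕ), 1 ≤ L → L ≤ n → (∀ j < L, h (a + (j : ZMod n)) = h a) →
        3 * L ^ 2 + 4 ≤ 8 * n) ∧
      (∀ (a d : ZMod n) (L : ℕ), DistinctProg d L → 1 ≤ L → (∀ j < L, h (a + j • d) = h a) →
        3 * L ^ 2 + 4 ≤ 8 * n) ∧
      (∀ (a d : ZMod n) (L m : ℕ), DistinctProg d L → (∀ j < L, h (a + j • d) = h a) →
        1 ≤ m → m ≤ L → 3 * (m : ℤ) * ((L : ℤ) - m) + (m : ℤ) ^ 2 + 2 ≤ 3 * n) ∧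
      (∀ (a d : ZMod n) (m : ℕ), DistinctProg d m →
        |∑ j ∈ range m, h (a + j • d)| * (|∑ j ∈ range m, h (a + j • d)| ^ 2 + 2)
          ≤ 3 * m * n)) ∧
    (IsCirculantHadamardRow row4 ∧ (∀ j : ℕ, j < 3 → row4 (0 + (j : ZMod 4)) = row4 0) ∧
      3 * ((2 : ℕ) : ℤ) * (((3 : ℕ) : ℤ) - ((2 : ℕ) : ℤ)) + ((2 : ℕ) : ℤ) ^ 2 + 2 = 3 * ((4 : ℕ) : ℤ)) := by
  refine ⟨?_, row4_isRow, ?_, by norm_num⟩
  · intro n _ h H
    exact ⟨fun a L h1 h2 h3 => block_length H a L h1 h2 h3,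
      fun a d L h1 h2 h3 => mono_length H a d L h1 h2 h3,
      fun a d L m h1 h2 h3 h4 => mono_window H a d L m h1 h2 h3 h4,
      fun a d m h1 => discrepancy H a d m h1⟩
  · intro j hj
    interval_cases j <;> decide

end Vale.Agent.Results.P033.MonochromaticProgressions
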